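import Vale.Agent.P281.H485.Gen.Har
import Vale.Agent.P281.H969.TGB.Spec

/-! # P281, project T-GB, block B2 (helper456): a hypersurface is not contained in a small set of
codimension two -/

open scoped Manifold ContDiff Topology
open Set Filter

noncomputable section

namespace Vale.Agent.P281.H456.TGB

open Vale.Agent.P281 Vale.Agent.P281.MF Vale.Agent.P281.J
open Vale.Agent.P281.H64 Vale.Agent.P281.H64.Gen
open Vale.Agent.P281.H383.Gen (dense_compl_small)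
open Vale.Agent.P281.H485.Gen (hartogs IsSmall2.small)

/-- **B2** -/
theorem hyp : H969.TGB.HypStmt := by
  intro n X _ _ _ _ B g x hB hg hx
  by_contra hcon
  rw [not_frequently] at hcon
  have hev : ∀ᶠ z in 𝓝 x, HolV (Cm n) g z ∧ (z ∉ B → g z ≠ 0) := by
    filter_upwards [hg.eventually, hcon] with z h1 h2
    exact ⟨h1, fun h3 h4 => h2 ⟨h4, h3⟩⟩
  obtain ⟨U, hU1, hU2, hU3⟩ := eventually_nhds_iff.1 hev
  have hs : ∀ z ∈ U, z ∉ B → HolV (Cm n) (fun z => (g z)⁻¹) z := by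
    intro z hz hzB
    have h1 : ContMDiffAt 𝓘(ℂ, Cm n) 𝓘(ℂ, ℂ) ω g z := (hU1 z hz).1
    have h2 : g z ≠ 0 := (hU1 z hz).2 hzB
    have h3 : ContMDiffAt 𝓘(ℂ, ℂ) 𝓘(ℂ, ℂ) ω (fun t : ℂ => t⁻¹) (g z) :=
      (contDiffAt_inv ℂ h2).contMDiffAt
    exact ContMDiffAt.comp (g := fun t : ℂ => t⁻¹) (f := g) z h3 h1
  obtain ⟨s', hs1, hs2⟩ := hartogs (n := n) hB hU2 hs
  have hdense : Dense Bᶜ := dense_compl_small (IsSmall2.small hB)
  have hfr : ∃ᶠ t in 𝓝 x, t ∉ B := mem_closure_iff_frequently.1 (hdense x)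
  have hc : ContinuousAt (fun z => s' z * g z) x :=
    (hs1 x hU3).continuousAt.mul hg.continuousAt
  have h1 : ∃ᶠ t in 𝓝 x, s' t * g t = 1 := by
    refine (hfr.and_eventually (hU2.mem_nhds hU3)).mono ?_
    rintro t ⟨ht1, ht2⟩
    rw [hs2 t ht2 ht1]
    exact inv_mul_cancel₀ ((hU1 t ht2).2 ht1)
  have h2 : s' x * g x = 1 := by
    by_contra hne
    have h3 : ∀ᶠ t in 𝓝 x, s' t * g t ≠ 1 := hc.eventually_ne hne
    exact h1 h3
  rw [hx, mul_zero] at h2
  exact zero_ne_one h2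

end Vale.Agent.P281.H456.TGB
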